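import Vale.Agent.P011.D4I.H659.Gen1
import Vale.Agent.P011.D4I.H657.Line
import Vale.Agent.P011.D4I.H369.Gen2

/-!
Block D4I: the centralisers of the involutions of the standard plane generate the adjoint group.
-/

open NumberField Topology

set_option linter.unusedSectionVars false

namespace Vale.Agent.P011.D4I

open Vale.Agent.P011.MPQ Vale.Agent.P011.D4 Vale.Agent.P011.D4.Oct Vale.Agent.P011.E6
open Vale.Agent.P011.D4T

variable {k L E : Type} [Field k] [NumberField k] [Field L] [Field E] [Algebra k L]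
  [Algebra k E] [Algebra L E] [IsScalarTower k L E] [NeZero (2 : E)] {ρ σ ι : E ≃ₐ[k] E} {α : E}
  {a b c : kˣ} {q : Lˣ} (H : HyI ρ σ ι α a b c q)

include H

/-- GEN1: every stable plane is a translate of the standard plane. -/
theorem gen1 {v : OctL E a b c} (hv : Pt ρ v) (hI : ∃ μ : E, Im ι v = μ • v) :
    ∃ y ∈ stabsI ρ σ ι α a b c q, ∃ t : E, t ≠ 0 ∧
      y.1 (tri ρ v (Jm ρ σ α q v)) = t • ep α :=
  H659.gen1_of H (fun _ _ H' => exists_line H') hv hI

/-- GEN. -/
theorem gen : stabsI ρ σ ι α a b c q = ⊤ :=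
  gen_ofI H.α2 H.ρα H.ια (fun _ hv hI => gen1 H hv hI) fun _ _ hz => gen2 H hz

end Vale.Agent.P011.D4I
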