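import Vale.Agent.P011.D4I.Defs
import Vale.Agent.P011.D4T.H657.Jq

/-!
Block D4I: generation by the centralisers of the involutions of the standard plane.
-/

open NumberField Topology

set_option linter.unusedSectionVars false

namespace Vale.Agent.P011.D4I

open Vale.Agent.P011.MPQ Vale.Agent.P011.D4 Vale.Agent.P011.D4.Oct Vale.Agent.P011.E6
open Vale.Agent.P011.D4T

section gen

variable {k L E : Type} [Field k] [Field L] [Field E] [Algebra k L] [Algebra k E] [Algebra L E]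
  [IsScalarTower k L E] [NeZero (2 : E)] {ρ σ ι : E ≃ₐ[k] E} {α : E}
  {a b c : kˣ} {q : Lˣ}

/-- The standard singular vector is singular. -/
theorem pt_std (hα : α * α = algebraMap k E a) (hρα : ρ α = α) :
    Pt ρ (⟨0, mk4 (up E a) (up E b) α 1 0 0 0⟩ : OctL E a b c) := by
  have hα' : α * α = ((up E a : Eˣ) : E) := hα
  constructor
  · intro h
    have h3 : mk4 (up E a) (up E b) α (1 : E) 0 0 0 = mk4 (up E a) (up E b) α 0 0 0 0 := by
      rw [mk4_zero]
      exact congrArg (fun x : OctL E a b c => x.snd) h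
    exact one_ne_zero (mk4_inj hα' h3).1
  · have h4 : qmap ρ (mk4 (up E a) (up E b) α (1 : E) 0 0 0) =
        mk4 (up E a) (up E b) α 1 0 0 0 := by
      rw [qmap_mk4 hρα, map_one, map_zero]
    have h5 : star (mk4 (up E a) (up E b) α (1 : E) 0 0 0) *
        mk4 (up E a) (up E b) α 1 0 0 0 = 0 := by
      rw [q_star_mul, nrd_mk4 hα']
      simp
    rw [tri]
    ext1
    · rw [fst_mul]
      simp only [omap, fst_star, snd_star, star_zero, qmap_zero, zero_mul, zero_add, qmap_neg, h4,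
        star_neg, neg_mul, mul_neg, neg_neg, h5, smul_zero]
      rfl
    · rw [snd_mul]
      simp only [omap, fst_star, snd_star, star_zero, qmap_zero, mul_zero, add_zero]
      rfl

/-- The standard singular vector is stable. -/
theorem Im_std (hια : ι α = α) :
    Im ι (⟨0, mk4 (up E a) (up E b) α 1 0 0 0⟩ : OctL E a b c) =
      (-1 : E) • (⟨0, mk4 (up E a) (up E b) α 1 0 0 0⟩ : OctL E a b c) := by
  have h4 : qmap ι (mk4 (up E a) (up E b) α (1 : E) 0 0 0) =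
      mk4 (up E a) (up E b) α 1 0 0 0 := by
    rw [qmap_mk4 hια, map_one, map_zero]
  rw [neg_smul, one_smul]
  ext1
  · change qmap ι (star 0) = -0
    rw [star_zero, qmap_zero, neg_zero]
  · change qmap ι (-mk4 (up E a) (up E b) α (1 : E) 0 0 0) = -mk4 (up E a) (up E b) α 1 0 0 0
    rw [qmap_neg, h4]

theorem ATI.pt (z : ATI ρ σ ι α a b c q) {v : OctL E a b c} (hv : Pt ρ v) : Pt ρ (z.1 v) := by
  obtain ⟨κ, hκ⟩ := z.2.1
  refine ⟨fun h => hv.1 (z.1.injective (h.trans (map_zero z.1).symm)), ?_⟩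
  have h1 := hκ v v
  rw [hv.2, map_zero] at h1
  exact (smul_eq_zero.1 h1.symm).resolve_left
    ((map_ne_zero ρ).2 ((map_ne_zero (algebraMap L E)).2 κ.ne_zero))

theorem ATI.nb (z : ATI ρ σ ι α a b c q) {v w : OctL E a b c} (h : Nb ρ v w) :
    Nb ρ (z.1 v) (z.1 w) := by
  obtain ⟨κ, hκ⟩ := z.2.1
  have h0 := (map_ne_zero ρ).2 ((map_ne_zero (algebraMap L E)).2 κ.ne_zero)
  constructor
  · have h1 := hκ v w
    rw [h.1, map_zero] at h1
    exact (smul_eq_zero.1 h1.symm).resolve_left h0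
  · have h1 := hκ w v
    rw [h.2, map_zero] at h1
    exact (smul_eq_zero.1 h1.symm).resolve_left h0

theorem ATI.stable (z : ATI ρ σ ι α a b c q) {v : OctL E a b c} (hI : ∃ μ : E, Im ι v = μ • v) :
    ∃ μ : E, Im ι (z.1 v) = μ • z.1 v := by
  obtain ⟨μ, hμ⟩ := hI
  exact ⟨μ, by rw [← z.2.2.2, hμ, map_smul]⟩

/-- The plane of a vector is carried to the plane of the image. -/
theorem ATI.plane (z : ATI ρ σ ι α a b c q) : ∃ r : E, r ≠ 0 ∧ ∀ v : OctL E a b c,
    z.1 (tri ρ v (Jm ρ σ α q v)) = r • tri ρ (z.1 v) (Jm ρ σ α q (z.1 v)) := by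
  obtain ⟨κ, hκ⟩ := z.2.1
  refine ⟨ρ (algebraMap L E (κ : L)),
    (map_ne_zero ρ).2 ((map_ne_zero (algebraMap L E)).2 κ.ne_zero), fun v => ?_⟩
  rw [hκ, z.2.2.1]

/-- GEN, from the two halves. -/
theorem gen_ofI (hα : α * α = algebraMap k E a) (hρα : ρ α = α) (hια : ι α = α)
    (gen1 : ∀ v : OctL E a b c, Pt ρ v → (∃ μ : E, Im ι v = μ • v) →
      ∃ y ∈ stabsI ρ σ ι α a b c q, ∃ t : E, t ≠ 0 ∧
        y.1 (tri ρ v (Jm ρ σ α q v)) = t • ep α)
    (gen2 : ∀ (z : ATI ρ σ ι α a b c q) (t : E), z.1 (ep α) = t • ep α →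
      z ∈ stabsI ρ σ ι α a b c q) : stabsI ρ σ ι α a b c q = ⊤ := by
  rw [eq_top_iff]
  intro z _
  have hv := pt_std (b := b) (c := c) hα hρα
  have hI : ∃ μ : E, Im ι (⟨0, mk4 (up E a) (up E b) α 1 0 0 0⟩ : OctL E a b c) =
    μ • (⟨0, mk4 (up E a) (up E b) α 1 0 0 0⟩ : OctL E a b c) := ⟨-1, Im_std hια⟩
  generalize (⟨0, mk4 (up E a) (up E b) α 1 0 0 0⟩ : OctL E a b c) = v at hv hI
  obtain ⟨z0, hz0, r, hr, e0⟩ := gen1 v hv hI
  obtain ⟨y, hy, t, ht, e1⟩ := gen1 _ (ATI.pt z hv) (ATI.stable z hI)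
  obtain ⟨κ, -, e2⟩ := ATI.plane z
  have e3 : (y * z * z0⁻¹).1 (ep α) = (r⁻¹ * (κ * t)) • ep α := by
    have e4 : z0⁻¹.1 (ep α) = r⁻¹ • tri ρ v (Jm ρ σ α q v) := by
      apply z0.1.injective
      rw [map_smul, e0, smul_smul, inv_mul_cancel₀ hr, one_smul]
      change (z0 * z0⁻¹ : ATI ρ σ ι α a b c q).1 _ = _
      rw [mul_inv_cancel]
      rfl
    change y.1 (z.1 (z0⁻¹.1 (ep α))) = _
    rw [e4, map_smul, map_smul, e2, map_smul, e1, smul_smul, smul_smul, mul_assoc]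
  have h3 := gen2 _ _ e3
  have h4 : z = y⁻¹ * (y * z * z0⁻¹) * z0 := by
    rw [mul_assoc y⁻¹, inv_mul_cancel_right, inv_mul_cancel_left]
  rw [h4]
  exact Subgroup.mul_mem _ (Subgroup.mul_mem _ (Subgroup.inv_mem _ hy) h3) hz0

end gen

end Vale.Agent.P011.D4I
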