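import Vale.Agent.P011.D4I.H691.Tr
import Vale.Agent.P011.D4I.H63.RamOdd
import Vale.Agent.P011.D4I.H69.Path
import Vale.Agent.P011.D4I.H659.GenOf
import Vale.Agent.P011.D4T.H691.Gen1

/-!
Block D4I (helper659): every stable plane is a translate of the standard plane, from the
transitivity along the standard line.
-/

open NumberField Topology

set_option linter.unusedSectionVars false

namespace Vale.Agent.P011.D4I

open Vale.Agent.P011.MPQ Vale.Agent.P011.D4 Vale.Agent.P011.D4.Oct Vale.Agent.P011.E6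
open Vale.Agent.P011.D4T

namespace H659

section alg

variable {k L E : Type} [Field k] [Field L] [Field E] [Algebra k L] [Algebra k E] [Algebra L E]
  [IsScalarTower k L E] [NeZero (2 : k)] [NeZero (2 : E)] {ρ σ ι : E ≃ₐ[k] E}
  {α : E} {a b c : kˣ} {q : Lˣ}

/-- The vector is an eigenvector of `I`. -/
def Stb (ι : E ≃ₐ[k] E) {a b c : kˣ} (v : OctL E a b c) : Prop := ∃ μ : E, Im ι v = μ • v

/-- The plane of `v` is a translate of the standard plane. -/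
def PP (ρ σ ι : E ≃ₐ[k] E) (α : E) (q : Lˣ) {a b c : kˣ} (v : OctL E a b c) : Prop :=
  ∃ y ∈ stabsI ρ σ ι α a b c q, ∃ t : E, t ≠ 0 ∧ y.1 (tri ρ v (Jm ρ σ α q v)) = t • ep α

theorem imul (t : E) (x : OctL E a b c) : Im ι (t • x) = ι t • Im ι x := invo_smul t x

theorem jmul (t : E) (x : OctL E a b c) : Jm ρ σ α q (t • x) = σ t • Jm ρ σ α q x := by
  rw [Jm_eq, Jm_eq, omap_smul, mul_smul_oct, smul_mul_oct]

theorem kap_ne (ρ : E ≃ₐ[k] E) (κ : Lˣ) : ρ (algebraMap L E (κ : L)) ≠ 0 :=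
  (map_ne_zero ρ).2 ((map_ne_zero (algebraMap L E)).2 κ.ne_zero)

theorem tri_kap {z : OctL E a b c ≃ₗ[E] OctL E a b c} {κ : Lˣ} (h : IsKapI ρ z κ)
    (x y : OctL E a b c) : tri ρ (z x) (z y) = (ρ (algebraMap L E (κ : L)))⁻¹ • z (tri ρ x y) := by
  rw [h, smul_smul, inv_mul_cancel₀ (kap_ne ρ κ), one_smul]

theorem trip_Im {b' c' : kˣ} {j l : Oct a b c} (h : Trip a b' c' gi j l) (x : OctL E a b' c') :
    tripO E h (Im ι x) = Im ι (tripO E h x) := by
  rw [Im, Im, tripO_omap, D4T.tripO_star]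

theorem stb_trip {b' c' : kˣ} {j l : Oct a b c} (h : Trip a b' c' gi j l) {v : OctL E a b' c'}
    (hv : Stb ι (tripO E h v)) : Stb ι v := by
  obtain ⟨μ, hμ⟩ := hv
  refine ⟨μ, ?_⟩
  apply (tripO E h).injective
  rw [trip_Im, hμ, map_smul]

theorem PP_trip {b' c' : kˣ} {j l : Oct a b c} (h : Trip a b' c' gi j l) {v : OctL E a b' c'}
    (hv : PP ρ σ ι α q v) : PP ρ σ ι α q (tripO E h v) := by
  obtain ⟨y, hy, t, ht, h1⟩ := hv
  refine ⟨cjAI ρ σ ι α q h y, cjAI_mem_stabsI h hy, t, ht, ?_⟩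
  rw [← tripO_Jm, ← D4T.tripO_tri]
  change cjE (tripO E h) y.1 _ = _
  rw [D4T.H691.cj_apply, h1, map_smul, D4T.H691.tripO_ep']

theorem PP_of_ATI {y : ATI ρ σ ι α a b c q} (hy : y ∈ stabsI ρ σ ι α a b c q)
    {v : OctL E a b c} (hv : PP ρ σ ι α q (y.1 v)) : PP ρ σ ι α q v := by
  obtain ⟨y2, hy2, t, ht, h1⟩ := hv
  obtain ⟨κ, hκ⟩ := y.2.1
  refine ⟨y2 * y, Subgroup.mul_mem _ hy2 hy, ρ (algebraMap L E (κ : L)) * t,
    mul_ne_zero (kap_ne ρ κ) ht, ?_⟩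
  change y2.1 (y.1 _) = _
  rw [hκ, y.2.2.1, map_smul, h1, smul_smul]

theorem PP_smul {s : E} (hs : s ≠ 0) {v : OctL E a b c} (hv : PP ρ σ ι α q v) :
    PP ρ σ ι α q (s • v) := by
  obtain ⟨y, hy, t, ht, h1⟩ := hv
  have hs1 : ρ s ≠ 0 := (map_ne_zero ρ).2 hs
  have hs2 : ρ (ρ (σ s)) ≠ 0 := (map_ne_zero ρ).2 ((map_ne_zero ρ).2 ((map_ne_zero σ).2 hs))
  refine ⟨y, hy, ρ s * (ρ (ρ (σ s)) * t), mul_ne_zero hs1 (mul_ne_zero hs2 ht), ?_⟩
  rw [jmul, tri_smul_left, tri_smul_right, map_smul, map_smul, h1, smul_smul, smul_smul]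
  congr 1
  ring

theorem PP_of_smul {s : E} (hs : s ≠ 0) {v : OctL E a b c} (hv : PP ρ σ ι α q (s • v)) :
    PP ρ σ ι α q v := by
  have h := PP_smul (inv_ne_zero hs) hv
  rwa [smul_smul, inv_mul_cancel₀ hs, one_smul] at h

theorem pt_smul {s : E} (hs : s ≠ 0) {v : OctL E a b c} (hv : Pt ρ v) : Pt ρ (s • v) :=
  ⟨smul_ne_zero hs hv.1, by rw [tri_smul_left, tri_smul_right, hv.2, smul_zero, smul_zero]⟩

theorem exists_fixed (H : HyI ρ σ ι α a b c q) {v : OctL E a b c} (hv : v ≠ 0)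
    (hI : Stb ι v) : ∃ s : E, s ≠ 0 ∧ Im ι (s • v) = s • v := by
  obtain ⟨μ, hμ⟩ := hI
  have h1 : ι μ * μ = 1 := by
    have h2 : Im ι (Im ι v) = v := invo_invo H.ι2 v
    rw [hμ, imul, hμ, smul_smul] at h2
    have h3 : (ι μ * μ - 1) • v = 0 := by rw [sub_smul, h2, one_smul, sub_self]
    exact sub_eq_zero.1 ((smul_eq_zero.1 h3).resolve_right hv)
  by_cases h2 : 1 + μ = 0
  · obtain ⟨δ, d, hδ, -, -, d3⟩ := H.exists_delta
    have hδ0 : δ ≠ 0 := by
      rintro rfl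
      rw [zero_mul] at hδ
      exact (map_ne_zero (algebraMap k E)).2 d.ne_zero hδ.symm
    refine ⟨δ, hδ0, ?_⟩
    rw [imul, hμ, d3, smul_smul]
    congr 1
    linear_combination (-δ) * h2
  · refine ⟨1 + μ, h2, ?_⟩
    rw [imul, hμ, smul_smul, map_add, map_one]
    congr 1
    linear_combination h1

/-- The elements of the standard line. -/
theorem tri_line (hα' : α * α = algebraMap k E a) (hρα : ρ α = α) (s t s' t' : E) :
    tri ρ (⟨0, mk4 (up E a) (up E b) α s 0 t 0⟩ : OctL E a b c)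
      ⟨0, mk4 (up E a) (up E b) α s' 0 t' 0⟩ = 0 := by
  have hα : α * α = ((up E a : Eˣ) : E) := hα'
  apply Oct.ext
  · simp only [tri, fst_mul, Nei.o1, Nei.o2, fst_star, snd_star, star_zero, qmap_zero, zero_mul,
      zero_add]
    have h1 : ∀ y : Qt (up E a) (up E b), qmap ρ (-y) = -qmap ρ y := fun y => by
      ext
      · exact map_neg ρ y.re
      · exact map_neg ρ y.imI
      · exact map_neg ρ y.imJ
      · exact map_neg ρ y.imK
    rw [h1, h1, h1, star_neg, neg_mul_neg, qmap_mk4 hρα, qmap_mk4 hρα, qmap_mk4 hρα,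
      star_mk4, mk4_mul hα]
    simp only [map_zero, mul_zero, zero_mul, add_zero, neg_zero, mk4_zero, smul_zero]
    rfl
  · simp only [tri, snd_mul, Nei.o1, Nei.o2, fst_star, snd_star, star_zero, qmap_zero,
      mul_zero, add_zero]
    rfl

/-- The involution on the standard line. -/
theorem Im_line (hια : ι α = α) (s t : E) :
    Im ι (⟨0, mk4 (up E a) (up E b) α s 0 t 0⟩ : OctL E a b c) =
      ⟨0, -mk4 (up E a) (up E b) α (ι s) 0 (ι t) 0⟩ := by
  have h4 : qmap ι (mk4 (up E a) (up E b) α s 0 t 0) =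
      mk4 (up E a) (up E b) α (ι s) 0 (ι t) 0 := by
    rw [qmap_mk4 hια, map_zero]
  apply Oct.ext
  · change qmap ι (star 0) = 0
    rw [star_zero, qmap_zero]
  · change qmap ι (-mk4 (up E a) (up E b) α s 0 t 0) = -mk4 (up E a) (up E b) α (ι s) 0 (ι t) 0
    rw [qmap_neg, h4]

end alg

section line

variable {k L E : Type} [Field k] [Field L] [Field E] [Algebra k L] [Algebra k E]
  [Algebra L E] [IsScalarTower k L E] [NeZero (2 : k)] [NeZero (2 : E)] {ρ σ ι : E ≃ₐ[k] E}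
  {α : E} {a b c : kˣ} {q : Lˣ} (H : HyI ρ σ ι α a b c q)
  (line : ∀ b' c' : kˣ, HyI ρ σ ι α a b' c' q → ∀ s t : E, s ≠ 0 ∨ t ≠ 0 →
    (∃ μ : E, Im ι (s • (ep α * gl) + t • ((1 - ep α) * (gj * gl)) : OctL E a b' c') =
      μ • (s • (ep α * gl) + t • ((1 - ep α) * (gj * gl)))) →
    ∃ z ∈ stab0I ρ σ ι α a b' c' q, ∃ r : E, r ≠ 0 ∧
      z.1 (ep α) = r • tri ρ (s • (ep α * gl) + t • ((1 - ep α) * (gj * gl)) : OctL E a b' c')
        (Jm ρ σ α q (s • (ep α * gl) + t • ((1 - ep α) * (gj * gl)))))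

include H line

theorem line1 (s t : E) (h : s ≠ 0 ∨ t ≠ 0)
    (hI : Stb ι (s • (ep α * gl) + t • ((1 - ep α) * (gj * gl)) : OctL E a b c)) :
    PP ρ σ ι α q (s • (ep α * gl) + t • ((1 - ep α) * (gj * gl)) : OctL E a b c) := by
  obtain ⟨z, hz, r, hr, h1⟩ := line b c H s t h hI
  refine ⟨z⁻¹, Subgroup.inv_mem _ (stab0I_le_stabsI hz), r⁻¹, inv_ne_zero hr, ?_⟩
  apply z.1.injective
  rw [map_smul, h1, smul_smul, inv_mul_cancel₀ hr, one_smul]
  change (z * z⁻¹ : ATI ρ σ ι α a b c q).1 _ = _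
  rw [mul_inv_cancel]
  rfl

theorem step0 {v : OctL E a b c} (hv : Pt ρ v) (hI : Stb ι v)
    (h : Nb ρ (ep α * oup E (gl : Oct a b c)) v) : PP ρ σ ι α q v := by
  obtain ⟨s, t, f, f1, f2, f3, f4, hf⟩ := nb_ep H hv hI h
  by_cases hf0 : f = 0
  · rw [hf0, oup_zero, mul_zero, smul_zero, add_zero, oup_gl] at hf
    have hs : s ≠ 0 := by
      rintro rfl
      rw [zero_smul] at hf
      exact hv.1 hf
    have e0 : (s • (ep α * gl) + (0 : E) • ((1 - ep α) * (gj * gl)) : OctL E a b c) = v := by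
      rw [zero_smul, add_zero, hf]
    have h1 := line1 H line s 0 (Or.inl hs) (by rw [e0]; exact hI)
    rwa [e0] at h1
  · -- the element `j'` with `f = j' l`
    have ha0 : (a : k) ≠ 0 := a.ne_zero
    have hb0 : (b : k) ≠ 0 := b.ne_zero
    have hc0 : (c : k) ≠ 0 := c.ne_zero
    have g0 : f.fst.re = 0 := by
      simp [dot] at f1
      exact f1
    have g1 : f.fst.imI = 0 := by
      simp [dot, gi] at f2
      exact f2
    have g2 : f.snd.re = 0 := by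
      simp [dot, gl] at f3
      exact f3
    have g3 : f.snd.imI = 0 := by
      simp [dot, gi, gl] at f4
      exact f4
    obtain ⟨j', hj'⟩ : ∃ j' : Oct a b c, j' =
      ⟨⟨0, 0, f.snd.imJ, f.snd.imK⟩, ⟨0, 0, f.fst.imJ / c, f.fst.imK / c⟩⟩ := ⟨_, rfl⟩
    have hjl : j' * gl = f := by
      rw [hj']
      apply ext8 <;> simp [gl, g0, g1, g2, g3] <;> field_simp
    have hj0 : j' ≠ 0 := by
      intro h0
      apply hf0
      rw [← hjl, h0, zero_mul]
    have hn : -norm j' ≠ 0 := neg_ne_zero.2 fun h0 => hj0 (H.hdiv _ h0)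
    have hsj : star j' = -j' := by
      rw [hj']
      apply ext8 <;> simp
    have ht : Trip a (Units.mk0 _ hn) c gi j' gl := by
      have hs : Trip a b c (gi : Oct a b c) gj gl := trip_std
      refine ⟨hs.si, hsj, hs.sl, hs.ii, norm_eq_of_sq hsj, hs.ll, ?_, hs.il, ?_, ?_⟩
      · rw [hj']; simp [dot, gi]
      · rw [hj']; simp [dot, gl]
      · rw [hj']; simp [dot, gi, gl]
    have hst : s ≠ 0 ∨ t ≠ 0 := by
      by_contra hcon
      push Not at hcon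
      rw [hcon.1, hcon.2, zero_smul, zero_smul, add_zero] at hf
      exact hv.1 hf
    have e1 : tripO E ht (s • (ep α * gl) + t • ((1 - ep α) * (gj * gl))) = v := by
      have e2 : tripO E ht gl = oup E gl := by
        rw [← oup_gl, tripO_oup, B.emb_gl]
      have e3 : tripO E ht gj = oup E j' := by
        rw [← oup_gj, tripO_oup, B.emb_gj]
      have e4 : tripO E ht 1 = 1 := hom_one (tripO_mul ht)
      rw [map_add, map_smul, map_smul, tripO_mul, tripO_mul, tripO_mul, map_sub, e4, e2, e3,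
        D4T.H691.tripO_ep', ← oup_mul, hjl, hf]
    have h1 := PP_trip ht (line1 (hyTripI H ht) line s t hst (stb_trip ht (by rw [e1]; exact hI)))
    rwa [e1] at h1

/-- Planes of neighbours. -/
theorem step {v v' : OctL E a b c} (hv : Pt ρ v) (hI : Stb ι v) (hv' : Pt ρ v')
    (hI' : Stb ι v') (hn : Nb ρ v v') (hP : PP ρ σ ι α q v) : PP ρ σ ι α q v' := by
  obtain ⟨y, hy, t, ht, h1⟩ := hP
  obtain ⟨κ, hκ⟩ := y.2.1
  have h2 : tri ρ (y.1 v) (Jm ρ σ α q (y.1 v)) =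
      ((ρ (algebraMap L E (κ : L)))⁻¹ * t) • ep α := by
    rw [← y.2.2.1, tri_kap hκ, h1, smul_smul]
  obtain ⟨s, w, hs, hw, w1, w2, h3⟩ := sing_ep H (ATI.pt y hv) (ATI.stable y hI)
    (mul_ne_zero (inv_ne_zero (kap_ne ρ κ)) ht) h2
  have hstd : Trip a b c (gi : Oct a b c) gj gl := trip_std
  have hi1 : dot (gi : Oct a b c) 1 = 0 := by simp [dot, gi]
  have hi0 : (gi : Oct a b c) ≠ 0 := by
    intro h0
    have h5 := congrArg (fun x : Oct a b c => x.fst.imI) h0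
    simp [gi] at h5
  obtain ⟨a', b', c', m, hm⟩ := D4.H369.trip_of_ij H.hdiv hi1 hi0 w1 hw w2
  have ht1 : Trip a c' b' gi m w := by
    refine ⟨hm.si, hm.sl, hm.sj, hstd.ii, hm.ll, hm.jj, hm.il, hm.ij, ?_, ?_⟩
    · rw [dot_comm]; exact hm.jl
    · rw [dot_mul_left, hm.si, neg_mul, dot_neg_right, dot_comm, hm.ijl, neg_zero]
  have e1 : y.1 v = s • tripO E ht1 (ep α * oup E gl) := by
    rw [h3, tripO_mul, D4T.H691.tripO_ep', tripO_oup, B.emb_gl]
  obtain ⟨x', hx'⟩ := (tripO E ht1).surjective (y.1 v')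
  have h4 : Pt ρ x' := D4T.H691.pt_trip ht1 (by rw [hx']; exact ATI.pt y hv')
  have h4' : Stb ι x' := stb_trip ht1 (by rw [hx']; exact ATI.stable y hI')
  have h5 : Nb ρ (ep α * oup E gl) x' := by
    apply D4T.H691.nb_trip ht1
    have h6 := ATI.nb y hn
    rw [e1, ← hx'] at h6
    have hs1 : ρ s ≠ 0 := (map_ne_zero_iff ρ ρ.injective).2 hs
    have hs2 : ρ (ρ s) ≠ 0 := (map_ne_zero_iff ρ ρ.injective).2 hs1
    refine ⟨?_, ?_⟩
    · have h7 := h6.1
      rw [tri_smul_left] at h7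
      exact (smul_eq_zero.1 h7).resolve_left hs1
    · have h7 := h6.2
      rw [tri_smul_right] at h7
      exact (smul_eq_zero.1 h7).resolve_left hs2
  have h7 := PP_trip ht1 (step0 (hyTripI H ht1) line h4 h4' h5)
  rw [hx'] at h7
  exact PP_of_ATI hy h7

/-- GEN1, from the transitivity along the standard line. -/
theorem gen1_of [NumberField k] {v : OctL E a b c} (hv : Pt ρ v) (hI : Stb ι v) : PP ρ σ ι α q v := by
  have hα : α * α = ((up E a : Eˣ) : E) := H.α2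
  obtain ⟨δ, d, hδ, -, -, d3⟩ := H.exists_delta
  have hδ0 : δ ≠ 0 := by
    rintro rfl
    rw [zero_mul] at hδ
    exact (map_ne_zero (algebraMap k E)).2 d.ne_zero hδ.symm
  -- the standard singular vector and a neighbour
  have h0 : ∀ s t : E, s ≠ 0 ∨ t ≠ 0 →
      (⟨0, mk4 (up E a) (up E b) α s 0 t 0⟩ : OctL E a b c) ≠ 0 := by
    intro s t hst he
    have h1 : mk4 (up E a) (up E b) α s 0 t 0 = mk4 (up E a) (up E b) α 0 0 0 0 := by
      rw [mk4_zero]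
      exact congrArg (fun x : OctL E a b c => x.snd) he
    obtain ⟨e1, -, e2, -⟩ := mk4_inj hα h1
    rcases hst with h | h
    · exact h e1
    · exact h e2
  have hfix : ∀ s t : E, ι s = -s → ι t = -t →
      Im ι (⟨0, mk4 (up E a) (up E b) α s 0 t 0⟩ : OctL E a b c) =
        ⟨0, mk4 (up E a) (up E b) α s 0 t 0⟩ := by
    intro s t hs ht
    rw [Im_line H.ια, hs, ht]
    congr 1
    rw [← neg_one_smul E (mk4 (up E a) (up E b) α (-s) 0 (-t) 0), smul_mk4]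
    simp
  have hP0 : Pt ρ (⟨0, mk4 (up E a) (up E b) α δ 0 0 0⟩ : OctL E a b c) :=
    ⟨h0 δ 0 (Or.inl hδ0), tri_line H.α2 H.ρα δ 0 δ 0⟩
  have hI0 : Im ι (⟨0, mk4 (up E a) (up E b) α δ 0 0 0⟩ : OctL E a b c) =
      ⟨0, mk4 (up E a) (up E b) α δ 0 0 0⟩ := hfix δ 0 d3 (by rw [map_zero, neg_zero])
  have hP1 : Pt ρ (⟨0, mk4 (up E a) (up E b) α 0 0 δ 0⟩ : OctL E a b c) :=
    ⟨h0 0 δ (Or.inr hδ0), tri_line H.α2 H.ρα 0 δ 0 δ⟩
  have hI1 : Im ι (⟨0, mk4 (up E a) (up E b) α 0 0 δ 0⟩ : OctL E a b c) =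
      ⟨0, mk4 (up E a) (up E b) α 0 0 δ 0⟩ := hfix 0 δ (by rw [map_zero, neg_zero]) d3
  have hne : ∀ t : E, (⟨0, mk4 (up E a) (up E b) α 0 0 δ 0⟩ : OctL E a b c) ≠
      t • (⟨0, mk4 (up E a) (up E b) α δ 0 0 0⟩ : OctL E a b c) := by
    intro t he
    have h1 : mk4 (up E a) (up E b) α 0 0 δ 0 = mk4 (up E a) (up E b) α (t * δ) (t * 0) (t * 0)
        (t * 0) := by
      rw [← smul_mk4]
      exact congrArg (fun x : OctL E a b c => x.snd) he
    obtain ⟨-, -, e2, -⟩ := mk4_inj hα h1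
    rw [mul_zero] at e2
    exact hδ0 e2
  obtain ⟨s, hs, hsI⟩ := exists_fixed H hv.1 hI
  obtain ⟨u, z, hu, huI, hz, hzI, g1, g2, g3⟩ := path (ρ := ρ) (ι := ι) H.ρ3 H.ι2 H.ιρ
    ⟨δ, hδ0, d3⟩ hP0 (pt_smul hs hv) hI0 hsI
    ⟨_, hP1, hI1, ⟨tri_line H.α2 H.ρα δ 0 0 δ, tri_line H.α2 H.ρα 0 δ δ 0⟩, hne⟩
  have hstb : ∀ {w : OctL E a b c}, invo ι w = w → Stb ι w := fun {w} hw =>
    ⟨1, by rw [one_smul]; exact hw⟩
  have hb : PP ρ σ ι α q (⟨0, mk4 (up E a) (up E b) α δ 0 0 0⟩ : OctL E a b c) := by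
    have h1 := line1 H line δ 0 (Or.inl hδ0) (by rw [line_vec H.α2]; exact hstb hI0)
    rwa [line_vec H.α2] at h1
  exact PP_of_smul hs (step H line hz (hstb hzI) (pt_smul hs hv) (hstb hsI) g3
    (step H line hu (hstb huI) hz (hstb hzI) g2 (step H line hP0 (hstb hI0) hu (hstb huI) g1 hb)))

end line

end H659

end Vale.Agent.P011.D4I
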